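import Vale.Agent.P058.Five

namespace Vale.Agent.Results.P058.A_full

open Vale.Agent.P058

theorem result :
    (∀ (d : ℕ) (A : Finset (E d)), A.Nonempty → ∀ F : IntermediateField ℚ ℝ,
      (∀ x ∈ A, ∀ α, x α ∈ F) → (IsRamsey A ↔ TensorCondition (pointsOver A F))) ∧
    (∀ (d : ℕ) (A : Finset (E d)), A.Nonempty → IsSubtransitive A → IsRamsey A) ∧
    (∃ A : Finset (E 2), A.Nonempty ∧ IsRamsey A ∧ ¬ IsSubtransitive A) ∧
    (∀ (d : ℕ) (A : Finset (E d)) (z : E d) (ρ : ℝ), (∀ x ∈ A, dist x z = ρ) →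
      (A.card ≤ 5 ∨ ∀ x ∈ A, ∀ α, IsAlgebraic ℚ (x α)) → IsRamsey A) :=
  ⟨fun _ _ hA F hF => isRamsey_iff hA F hF, fun _ _ hA h => h.isRamsey hA,
    exists_ramsey_not_subtransitive,
    fun _ _ _ _ hA h => h.elim (isRamsey_of_card_le_five hA) (isRamsey_of_algebraic hA)⟩

end Vale.Agent.Results.P058.A_full
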