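import Vale.Agent.P058.Field

namespace Vale.Agent.Results.P058.B_char

open Vale.Agent.P058

theorem result (d : ℕ) (A : Finset (E d)) (hA : A.Nonempty) (F : IntermediateField ℚ ℝ)
    (hF : ∀ x ∈ A, ∀ α, x α ∈ F) : IsRamsey A ↔ TensorCondition (pointsOver A F) :=
  isRamsey_iff hA F hF

end Vale.Agent.Results.P058.B_char
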